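import Vale.Agent.P155.FinalStmt

/-!
# P155, SW: translations
-/

open Set Topology Metric Filter MeasureTheory

namespace Vale.Agent.P155.SW795

open Vale.Agent.P155

/-- a translate of a simply connected set is simply connected -/
theorem sc_trans {V : Set ℂ} (h : SimplyConnectedSpace V) (c : ℂ) :
    SimplyConnectedSpace {z | z - c ∈ V} := by
  have e1 : (Homeomorph.addRight c) '' V = {z | z - c ∈ V} := by
    ext z
    constructor
    · rintro ⟨w, hw, rfl⟩
      simpa using hw
    · intro hz
      exact ⟨z - c, hz, by simp⟩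
  have e : V ≃ₜ ((Homeomorph.addRight c) '' V : Set ℂ) := (Homeomorph.addRight c).image V
  rw [← e1]
  exact e.symm.toHomotopyEquiv.simplyConnectedSpace

/-- a translate of a test function is a test function -/
theorem isTest_trans {U : Set ℂ} {v : ℂ → ℝ} (hv : IsTest U v) (c : ℂ) :
    IsTest {z | z - c ∈ U} (fun z => v (z - c)) := by
  refine ⟨hv.1.comp (contDiff_id.sub contDiff_const),
    hv.2.1.comp_homeomorph (Homeomorph.subRight c), ?_⟩
  have h1 : tsupport (fun z => v (z - c)) ⊆ (fun z => z - c) ⁻¹' tsupport v :=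
    closure_minimal (fun z hz => subset_tsupport v hz)
      ((isClosed_tsupport v).preimage (continuous_id.sub continuous_const))
  exact fun z hz => hv.2.2 (h1 hz)

theorem isTest_trans' {U : Set ℂ} {v : ℂ → ℝ} {c : ℂ} (hv : IsTest {z | z - c ∈ U} v) :
    IsTest U (fun z => v (z + c)) := by
  have h := isTest_trans hv (-c)
  simpa using h

theorem green_trans (U : Set ℂ) (φ : ℂ → ℝ) (c : ℂ) :
    greenEnergy {z | z - c ∈ U} φ = greenEnergy U (fun z => φ (z + c)) := by
  have hp : ∀ u : ℂ → ℝ, ∫ z, φ z * u (z - c) = ∫ z, φ (z + c) * u z := by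
    intro u
    rw [← integral_add_right_eq_self (fun z => φ z * u (z - c)) c]
    simp
  have he : ∀ u : ℂ → ℝ, ∫ z, ‖fderiv ℝ (fun w => u (w - c)) z‖ ^ 2 =
      ∫ z, ‖fderiv ℝ u z‖ ^ 2 := by
    intro u
    have : ∀ z, fderiv ℝ (fun w => u (w - c)) z = fderiv ℝ u (z - c) := fun z =>
      fderiv_comp_sub c
    simp_rw [this]
    exact integral_sub_right_eq_self (fun z => ‖fderiv ℝ u z‖ ^ 2) c
  unfold greenEnergy
  congr 1
  ext x
  constructor
  · rintro ⟨v, hv, rfl⟩
    refine ⟨fun z => v (z + c), isTest_trans' hv, ?_⟩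
    rw [← hp (fun z => v (z + c)), ← he (fun z => v (z + c))]
    simp
  · rintro ⟨v, hv, rfl⟩
    refine ⟨fun z => v (z - c), isTest_trans hv c, ?_⟩
    rw [hp v, he v]

end Vale.Agent.P155.SW795
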